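import Mathlib
import Vale.Agent.P109.Stmt

/-! Internal definitions of the proof. -/

namespace Vale.Agent.P109

open MeasureTheory Set Metric Module
open scoped ENNReal

/-- Euclidean space. -/
abbrev Eu (d : ℕ) := EuclideanSpace ℝ (Fin d)

section Ent
variable {Ω α β : Type*} [MeasurableSpace Ω]

/-- A random variable with finitely many values and measurable fibres. -/
def FinRV (X : Ω → α) : Prop := (range X).Finite ∧ ∀ a, MeasurableSet (X ⁻¹' {a})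

/-- Probability of the value taken at the point z. -/
noncomputable def pr (ν : Measure Ω) (X : Ω → α) (z : Ω) : ℝ := ν.real (X ⁻¹' {X z})

/-- Conditional entropy H(U | D). -/
noncomputable def Hc (ν : Measure Ω) (U : Ω → α) (D : Ω → β) : ℝ :=
  ∫ z, Real.log (pr ν D z / pr ν (fun y => (U y, D y)) z) ∂ν

omit [MeasurableSpace Ω] in
/-- D determines D'. -/
def Refines (D : Ω → α) (D' : Ω → β) : Prop := ∀ z z', D z = D z' → D' z = D' z'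

omit [MeasurableSpace Ω] in
/-- The word read at times 0, l, 2l, ..., (n-1)l. -/
def name (S : Ω → Ω) (sym : Ω → α) (l n : ℕ) (z : Ω) : Fin n → α := fun j => sym (S^[l * j] z)

/-- Approximate conditional independence of B and A given W on the event S₀. -/
structure Indep {γ δ : Type*} (ν : Measure Ω) (B A : Ω → α) (Dp : Ω → β) (G : Ω → γ) (W : Ω → δ)
    (S₀ : Set Ω) (K Qt : ℝ) : Prop where
  finG : FinRV G
  finW : FinRV W
  refB : Refines Dp B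
  refA : Refines Dp A
  refW : Refines (fun z => (Dp z, G z)) W
  refG : Refines W G
  detS : ∀ z z', G z = G z' → z ∈ S₀ → z' ∈ S₀
  bound : ∃ Qf qf : α → δ → ℝ, (∀ a w, 0 ≤ Qf a w) ∧ (∀ b w, 0 ≤ qf b w) ∧
    (∀ s : Finset (α × δ), ∑ p ∈ s, Qf p.1 p.2 ≤ Qt) ∧
    (∀ (w : δ) (s : Finset α), ∑ b ∈ s, qf b w ≤ 1) ∧
    ∀ z ∈ S₀, ν.real {y | B y = B z ∧ A y = A z ∧ W y = W z} ≤ K * Qf (A z) (W z) * qf (B z) (W z)

/-- A tie between U' and U'' which survives conditioning on any event of not too small measure. -/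
structure Tie {γ : Type*} (ν : Measure Ω) (U' U'' : Ω → α) (Φ : Ω → γ) (𝒯 : Set γ) (a b : ℝ) :
    Prop where
  finΦ : FinRV Φ
  ex : ∃ ℰ : γ → Set (α × α), (∀ᵐ z ∂ν, Φ z ∈ 𝒯 → (U' z, U'' z) ∈ ℰ (Φ z)) ∧
    ∀ φ ∈ 𝒯, ∀ w : Set Ω, MeasurableSet w → w ⊆ Φ ⁻¹' {φ} → ∀ s : Finset (α × α), ↑s ⊆ ℰ φ →
      ∑ p ∈ s, ν.real (w ∩ U' ⁻¹' {p.1}) * ν.real (w ∩ U'' ⁻¹' {p.2}) ≤
        a * ν.real w ^ 2 + b * ν.real w

/-- A tower of height B with two columns carrying the word β and its flip. -/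
def HasTower (ν : Measure Ω) (S : Ω → Ω) (sym : Ω → ZMod 2) (B : ℕ) (β : ℕ → ZMod 2) : Prop :=
  ∃ (pos : Ω → ℕ) (col : Ω → ZMod 2), Measurable pos ∧ Measurable col ∧ (∀ z, pos z < B) ∧
    (∀ p < B, ∀ s, ν.real {z | pos z = p ∧ col z = s} = 1 / (2 * B)) ∧
    ∀ᵐ z ∂ν, ∀ t, pos z + t < B → sym (S^[t] z) = col z + β (pos z + t)

end Ent

/-- Two-source extractor property. -/
def ExtProp {A P : Type} [Fintype A] [Fintype P] [DecidableEq A] [DecidableEq P]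
    (Ext : (A → ZMod 2) → (A → ZMod 2) → (P → ZMod 2)) : Prop :=
  ∀ (x : (A → ZMod 2) → ℝ) (y : (A → ZMod 2) → (P → ZMod 2) → ℝ) (c : ℝ),
    (∀ v, 0 ≤ x v) → (∀ r p, 0 ≤ y r p) → (∀ v, x v ≤ c) → (∀ r, ∑ p, y r p ≤ c) →
    ∑ v, ∑ r, x v * y r (Ext v r) ≤
      (∑ v, x v) * (∑ r, ∑ p, y r p) / 2 ^ Fintype.card P +
        √(2 ^ Fintype.card A) * c * √((∑ v, x v) * (∑ r, ∑ p, y r p))

/-- Length (in letters) of the blocks of level i. -/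
def nlev (J k i : ℕ) : ℕ := 8 * J * k * 2 ^ i

/-- The code has a tie between the first and the last quarter of each block of level i < J. -/
def IsCode (J k : ℕ) (code : (Fin (nlev J k J) → ZMod 2) → ℕ → ZMod 2) : Prop :=
  ∀ i < J, ∃ Ext : (Fin (k * 2 ^ i) × Fin J → ZMod 2) → (Fin (k * 2 ^ i) × Fin J → ZMod 2) →
      (Fin (k * 2 ^ i) → ZMod 2), ExtProp Ext ∧
    ∀ B : ℕ, (B + 1) * nlev J k i ≤ nlev J k J →
      ∃ (ι' ι'' : Fin (k * 2 ^ i) × Fin J → Fin (nlev J k J)) (ιp : Fin (k * 2 ^ i) → ℕ),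
        Function.Injective ι' ∧ Function.Injective ι'' ∧
        (∀ a, B * nlev J k i ≤ ι' a ∧ 4 * (ι' a : ℕ) < (4 * B + 1) * nlev J k i) ∧
        (∀ a, (4 * B + 3) * nlev J k i ≤ 4 * (ι'' a : ℕ) ∧ ι'' a < (B + 1) * nlev J k i) ∧
        (∀ p, (4 * B + 3) * nlev J k i ≤ 4 * ιp p ∧ ιp p < (B + 1) * nlev J k i) ∧
        ∀ D, (∀ a, code D (ι' a) = D (ι' a)) ∧ (∀ a, code D (ι'' a) = D (ι'' a)) ∧
          ∀ p, code D (ιp p) = Ext (D ∘ ι') (D ∘ ι'') p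

/-- The concatenation of all code words. -/
def IsWord (J k : ℕ) (wd : ℕ → ZMod 2) : Prop :=
  ∃ (code : (Fin (nlev J k J) → ZMod 2) → ℕ → ZMod 2) (dat : ℕ → Fin (nlev J k J) → ZMod 2),
    IsCode J k code ∧ BijOn dat (Iio (2 ^ nlev J k J)) univ ∧
    ∀ x, wd x = code (dat (x / nlev J k J)) (x % nlev J k J)

/-- The towers of all the coding stages. -/
def Rich {Ω : Type*} [MeasurableSpace Ω] (ν : Measure Ω) (S : Ω → Ω) (sym : Ω → ZMod 2) : Prop :=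
  ∀ e₀ : ℕ, ∃ e ≥ e₀, ∃ β₀ wd : ℕ → ZMod 2, IsWord ((2 ^ e) ^ 9) (2 ^ e) wd ∧
    HasTower ν S sym
      (2 ^ e * (nlev ((2 ^ e) ^ 9) (2 ^ e) ((2 ^ e) ^ 9) *
        2 ^ nlev ((2 ^ e) ^ 9) (2 ^ e) ((2 ^ e) ^ 9)))
      (fun p => β₀ (p % 2 ^ e) + wd (p / 2 ^ e))

/-- Combinatorial data of a generalized Morse system. -/
structure MorseData where
  e : ℕ → ℕ
  β : ℕ → ℕ → ZMod 2
  b : ℕ → ℕ → ZMod 2
  mono : StrictMono e
  compat : ∀ K p, β (K + 1) p = β K (p % 2 ^ e K) + b K (p / 2 ^ e K)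
  flip : ∀ K₀, ∃ K ≥ K₀, e (K + 1) = e K + 1 ∧ b K 0 ≠ b K 1

/-- A realization of the generalized Morse system. -/
structure MorseSys (D : MorseData) {X : Type} [MeasurableSpace X] (μ : Measure X) (T : X → X) where
  pos : ℕ → X → ℕ
  sym : X → ZMod 2
  mp : MeasurePreserving T μ μ
  meas_pos : ∀ K, Measurable (pos K)
  meas_sym : Measurable sym
  pos_lt : ∀ K x, pos K x < 2 ^ D.e K
  pos_compat : ∀ K x, pos K x = pos (K + 1) x % 2 ^ D.e K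
  pos_T : ∀ K x, pos K (T x) = (pos K x + 1) % 2 ^ D.e K
  sym_T : ∀ K x, pos K x + 1 < 2 ^ D.e K →
    sym (T x) + D.β K (pos K x + 1) = sym x + D.β K (pos K x)
  law : ∀ K p s, p < 2 ^ D.e K → μ.real {x | pos K x = p ∧ sym x = s} = 1 / (2 * 2 ^ D.e K)
  approx : ∀ (α : Type) (P : X → α), FinRV P → ∀ ε : ℝ, 0 < ε → ∃ K₀, ∀ K ≥ K₀, ∃ bad : Set X,
    MeasurableSet bad ∧ μ.real bad < ε ∧
      ∀ x ∉ bad, ∀ y ∉ bad, pos K x = pos K y → sym x = sym y → P x = P y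

/-- Piecewise smooth model in Euclidean space of a measure preserving map. -/
structure PW (d : ℕ) {Ω : Type*} [MeasurableSpace Ω] (ν : Measure Ω) (S : Ω → Ω) where
  Θ : Ω → Eu d
  f : Eu d → Eu d
  A : Ω → Eu d ≃L[ℝ] Eu d
  L : ℝ
  Good : ℝ → Set Ω
  one_le : 1 ≤ L
  emb : MeasurableEmbedding Θ
  semi : ∀ z, f (Θ z) = Θ (S z)
  bdd : ∀ z, ‖Θ z‖ ≤ L
  le_vol : ∀ t, ν (Θ ⁻¹' t) ≤ ENNReal.ofReal L * volume t
  vol_le : ∀ t ⊆ range Θ, volume t ≤ ENNReal.ofReal L * ν (Θ ⁻¹' t)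
  A_meas : Measurable fun z => (A z : Eu d →L[ℝ] Eu d)
  A_le : ∀ z v, ‖A z v‖ ≤ L * ‖v‖
  A_ge : ∀ z v, ‖v‖ ≤ L * ‖A z v‖
  good_prob : ∀ σ, 0 < σ → ν.real (Good σ)ᶜ ≤ L * √σ
  good_sub : ∀ σ, ∀ z ∈ Good σ, ball (Θ z) σ ⊆ range Θ
  good_lin : ∀ σ, ∀ z ∈ Good σ, ∀ y ∈ ball (Θ z) σ, ∀ y' ∈ ball (Θ z) σ,
    ‖f y - f y' - A z (y - y')‖ ≤ L * σ * ‖y - y'‖
  good_A : ∀ σ, ∀ z ∈ Good σ, ∀ z', Θ z' ∈ ball (Θ z) σ → ∀ v, ‖A z v - A z' v‖ ≤ L * σ * ‖v‖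

variable {d : ℕ}

/-- The linear cocycle generated by A. -/
noncomputable def coc {Ω : Type*} (A : Ω → Eu d ≃L[ℝ] Eu d) (S : Ω → Ω) (z : Ω) :
    ℕ → Eu d ≃L[ℝ] Eu d
  | 0 => ContinuousLinearEquiv.refl ℝ _
  | t + 1 => (coc A S z t).trans (A (S^[t] z))

/-- Jacobian of B restricted to a subspace. -/
noncomputable def jac (B : Eu d →L[ℝ] Eu d) (U : Submodule ℝ (Eu d)) : ℝ :=
  ((B : Eu d →ₗ[ℝ] Eu d).domRestrict U).normDet

/-- The subadditive potential: sum of the positive parts of log singular value minus t. -/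
noncomputable def Vp (t : ℝ) (B : Eu d →L[ℝ] Eu d) : ℝ :=
  Real.log (⨆ U : Submodule ℝ (Eu d), jac B U * Real.exp (-(t * finrank ℝ U)))

/-- Defect of additivity of the potentials along n blocks of length u. -/
noncomputable def dfc {Ω : Type*} (A : Ω → Eu d ≃L[ℝ] Eu d) (S : Ω → Ω) (γ : ℝ) (u n : ℕ)
    (z : Ω) : ℝ :=
  ∑ j ∈ Finset.range (d + 2),
    (∑ b ∈ Finset.range n, Vp (j * (γ * u)) (coc A S (S^[b * u] z) u : Eu d →L[ℝ] Eu d) -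
      Vp (j * (γ * u) * n) (coc A S z (n * u) : Eu d →L[ℝ] Eu d))

/-- An invariant splitting with a gap between the rates j γ and (j + 1) γ up to time T. -/
def Splits (Q : ℕ → Eu d ≃L[ℝ] Eu d) (T j : ℕ) (γ Γ : ℝ) : Prop :=
  ∃ π : Eu d →L[ℝ] Eu d, (∀ v, π (π v) = π v) ∧ ∀ s t : ℕ, s ≤ t → t ≤ T → ∀ v,
    ‖Q t (π v)‖ ≤ Γ * Real.exp (j * γ * (t - s)) * ‖Q s v‖ ∧
    ‖Q s (v - π v)‖ ≤ Γ * Real.exp (-((j + 1) * γ * (t - s))) * ‖Q t v‖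

/-- A tube of radius R around the points x t in which f is close to the linear cocycle Q. -/
structure Tube (f : Eu d → Eu d) (x : ℕ → Eu d) (Q : ℕ → Eu d ≃L[ℝ] Eu d)
    (π : Eu d →L[ℝ] Eu d) (T : ℕ) (R ε Γ : ℝ) : Prop where
  Q0 : ∀ v, Q 0 v = v
  lin : ∀ t < T, ∀ y ∈ ball (x t) R, ∀ y' ∈ ball (x t) R,
    ‖f y - f y' - Q (t + 1) ((Q t).symm (y - y'))‖ ≤ ε * ‖y - y'‖
  idem : ∀ v, π (π v) = π v
  stab : ∀ s t, s ≤ t → t ≤ T → ∀ v, ‖Q t (π v)‖ ≤ Γ * ‖Q s v‖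
  unst : ∀ s t, s ≤ t → t ≤ T → ∀ v, ‖Q s (v - π v)‖ ≤ Γ * ‖Q t v‖
  eps : 0 ≤ ε
  gam : 1 ≤ Γ

/-- Stable coordinate at time 0 plus unstable coordinate at time t. -/
noncomputable def Psi (f : Eu d → Eu d) (Q : ℕ → Eu d ≃L[ℝ] Eu d) (π : Eu d →L[ℝ] Eu d) (t : ℕ)
    (y : Eu d) : Eu d :=
  ((Q t).symm (f^[t] y) - π ((Q t).symm (f^[t] y))) + π y

/-- Index of the cube of side r containing y. -/
noncomputable def box (r : ℝ) (y : Eu d) : Fin d → ℤ := fun j => ⌊y j / r⌋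

/-- Corner of the cube of side r with index b. -/
noncomputable def ctr (r : ℝ) (b : Fin d → ℤ) : Eu d := WithLp.toLp 2 fun j => r * b j

/-- The point y is at distance more than σ from the walls of its cube of side r. -/
def GG (r σ : ℝ) (y : Eu d) : Prop :=
  ∀ j, σ / r < Int.fract (y j / r) ∧ Int.fract (y j / r) + σ / r < 1

/-- Itinerary through the dyadic cubes of generation h during the times 0, ..., N - 1. -/
noncomputable def PW.itin {Ω : Type*} [MeasurableSpace Ω] {ν : Measure Ω} {S : Ω → Ω}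
    (P : PW d ν S) (h N : ℕ) : Ω → Fin N → Fin d → ℤ :=
  name S (fun z => box ((1 / 2 : ℝ) ^ h) (P.Θ z)) 1 N

/-- A finite family of compact convex chart domains. -/
structure Atlas (d : ℕ) {M : Type*} [MeasurableSpace M] (ν : Measure M) (S : M → M) where
  n : ℕ
  φ : Fin n → M → Eu d
  φi : Fin n → Eu d → M
  K : Fin n → Set (Eu d)
  ψ : Fin n → M → ℝ
  C : ℝ
  one_le : 1 ≤ C
  K_cpt : ∀ i, IsCompact (K i)
  K_cvx : ∀ i, Convex ℝ (K i)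
  K_int : ∀ i, (interior (K i)).Nonempty
  meas_φ : ∀ i, Measurable (φ i)
  meas_φi : ∀ i, Measurable (φi i)
  meas_ψ : ∀ i, Measurable (ψ i)
  meas_W : ∀ i, MeasurableSet (φi i '' K i)
  right_inv : ∀ i, ∀ y ∈ K i, φ i (φi i y) = y
  supp : ∀ i z, 0 < ψ i z → z ∈ φi i '' K i
  cover : ∀ z, ∃ i, 1 ≤ ψ i z
  le_vol : ∀ i t, MeasurableSet t → t ⊆ K i → ν (φi i '' t) ≤ ENNReal.ofReal C * volume t
  vol_le : ∀ i t, MeasurableSet t → t ⊆ K i → volume t ≤ ENNReal.ofReal C * ν (φi i '' t)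
  lip : ∀ i k, ∀ y ∈ K i, ∀ y' ∈ K i, |ψ k (φi i y) - ψ k (φi i y')| ≤ C * ‖y - y'‖ ∧
    |ψ k (S (φi i y)) - ψ k (S (φi i y'))| ≤ C * ‖y - y'‖
  loc : ∀ i j y σ, ball y σ ⊆ K i → (∀ y' ∈ ball y σ, S (φi i y') ∈ φi j '' K j) →
    ∀ y' ∈ ball y σ, DifferentiableAt ℝ (φ j ∘ S ∘ φi i) y' ∧
      (∀ v, ‖fderiv ℝ (φ j ∘ S ∘ φi i) y' v‖ ≤ C * ‖v‖ ∧
        ‖v‖ ≤ C * ‖fderiv ℝ (φ j ∘ S ∘ φi i) y' v‖) ∧
      ∀ y'' ∈ ball y σ,
        ‖fderiv ℝ (φ j ∘ S ∘ φi i) y' - fderiv ℝ (φ j ∘ S ∘ φi i) y''‖ ≤ C * ‖y' - y''‖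

namespace Atlas
variable {M : Type*} [MeasurableSpace M] {ν : Measure M} {S : M → M} (𝒜 : Atlas d ν S)
  (lev : Fin 𝒜.n → ℝ)

/-- The pieces of the partition of M defined by the levels. -/
def piece (i : Fin 𝒜.n) : Set M := {z | lev i < 𝒜.ψ i z ∧ ∀ k < i, 𝒜.ψ k z ≤ lev k}

open Classical in
/-- The global injective chart. -/
noncomputable def Θ (z : M) : Eu d := ∑ i, if z ∈ 𝒜.piece lev i then 𝒜.φ i z else 0

/-- The map read in the global chart. -/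
noncomputable def f : Eu d → Eu d := Function.extend (𝒜.Θ lev) (fun z => 𝒜.Θ lev (S z)) 0

/-- Points whose σ-ball does not meet the singularities. -/
def Good (σ : ℝ) : Set M :=
  {z | ∃ i j, z ∈ 𝒜.piece lev i ∧
    ball (𝒜.φ i z) σ ⊆ 𝒜.φ i '' (𝒜.piece lev i ∩ S ⁻¹' 𝒜.piece lev j)}

end Atlas

end Vale.Agent.P109
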